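import Vale.Agent.Lib.P336.Upper
import Vale.Agent.Lib.P336.Lower

/-!
# P336: the largest depth-three complexity of an `n`-variable function is `2^(n/2+1)` up to `O(n)`

(1) For every Boolean function `f` of `n` variables the minimum `S_3(f)` is attained and
`S_3(f) ≤ 2^⌊n/2⌋ + 2^⌈n/2⌉ + n + 1`.
(2) If `(t + 4n + 4)^2 ≤ 2^(n+2)` then some `f` of `n` variables has `S_3(f) ≥ t + 2`.
(3) For `n = 2k`: some `f` has `2^(k+1) ≤ S_3(f) + 8k + 2`, while all `f` have `S_3(f) ≤ 2^(k+1) + 2k + 1`.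
-/

namespace Vale.Agent.Results.P336.UniversalBounds

open Vale.Agent.Lib.P336

theorem S3_attained {n : ℕ} (f : (Fin n → Bool) → Bool) :
    ∃ c : Circuit n, Computes c f ∧ c.size = S3 f := by
  obtain ⟨c, hc, _⟩ := upper n f
  exact Nat.sInf_mem (s := {s | ∃ c : Circuit n, Computes c f ∧ c.size = s}) ⟨c.size, c, hc, rfl⟩

theorem S3_le {n : ℕ} (f : (Fin n → Bool) → Bool) (c : Circuit n) (hc : Computes c f) :
    S3 f ≤ c.size :=
  Nat.sInf_le (s := {s | ∃ c : Circuit n, Computes c f ∧ c.size = s}) ⟨c, hc, rfl⟩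

theorem result :
    (∀ (n : ℕ) (f : (Fin n → Bool) → Bool),
      (∃ c : Circuit n, Computes c f ∧ c.size = S3 f) ∧
      S3 f ≤ 2 ^ (n / 2) + 2 ^ ((n + 1) / 2) + n + 1) ∧
    (∀ n t : ℕ, (t + 4 * n + 4) ^ 2 ≤ 2 ^ (n + 2) →
      ∃ f : (Fin n → Bool) → Bool, t + 2 ≤ S3 f) ∧
    (∀ k : ℕ, (∃ f : (Fin (2 * k) → Bool) → Bool, 2 ^ (k + 1) ≤ S3 f + 8 * k + 2) ∧
      ∀ f : (Fin (2 * k) → Bool) → Bool, S3 f ≤ 2 ^ (k + 1) + 2 * k + 1) := by
  have hup : ∀ (n : ℕ) (f : (Fin n → Bool) → Bool),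
      S3 f ≤ 2 ^ (n / 2) + 2 ^ ((n + 1) / 2) + n + 1 := by
    intro n f
    obtain ⟨c, hc, hs⟩ := upper n f
    exact (S3_le f c hc).trans hs
  have hlow : ∀ n t : ℕ, (t + 4 * n + 4) ^ 2 ≤ 2 ^ (n + 2) →
      ∃ f : (Fin n → Bool) → Bool, t + 2 ≤ S3 f := by
    intro n t ht
    obtain ⟨f, hf⟩ := lower n t ht
    obtain ⟨c, hc, hs⟩ := S3_attained f
    exact ⟨f, hs ▸ hf c hc⟩
  refine ⟨fun n f => ⟨S3_attained f, hup n f⟩, hlow, fun k => ⟨?_, fun f => ?_⟩⟩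
  · by_cases hk : 8 * k + 4 ≤ 2 ^ (k + 1)
    · obtain ⟨t, ht⟩ := Nat.exists_eq_add_of_le hk
      obtain ⟨f, hf⟩ := hlow (2 * k) t (by
        have h1 : t + 4 * (2 * k) + 4 = 2 ^ (k + 1) := by omega
        rw [h1, ← pow_mul]
        exact le_of_eq (by congr 1; ring))
      exact ⟨f, by omega⟩
    · refine ⟨fun _ => false, ?_⟩
      obtain ⟨c, _, hs⟩ := S3_attained (fun _ : Fin (2 * k) → Bool => false)
      have : 1 ≤ c.size := by unfold Circuit.size; omega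
      omega
  · have h := hup (2 * k) f
    have h1 : 2 * k / 2 = k := by omega
    have h2 : (2 * k + 1) / 2 = k := by omega
    rw [h1, h2] at h
    have h3 : 2 ^ (k + 1) = 2 ^ k + 2 ^ k := by ring
    omega

end Vale.Agent.Results.P336.UniversalBounds
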